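import Vale.Agent.P174.Bdl.D
import Vale.Agent.P174.Bdl.All
import Vale.Agent.P174.LO.Local

/-!
Single equations: left-orderable coefficient groups, and the left-orderable images of an element
killed by a nonsingular equation over an arbitrary group.
-/

namespace Vale.Agent.P174.H753

open Vale.Agent.P174

universe u w

/-- `G` has a linear order which is invariant under left multiplication. -/
def LeftOrderable (G : Type u) [Group G] : Prop :=
  ∃ r : LinearOrder G, ∀ a b c : G, r.lt b c → r.lt (a * b) (a * c)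

theorem aux_rank {G : Type u} [Group G] {n : ℕ} {w : Words G n} {g : G}
    (h : IsConj w (Monoid.Coprod.inl g)) : ¬ FullRank ℚ (fun _ : Fin 1 => w) := by
  intro hr
  have h1 : expSum G n w = 1 := by
    have h2 : IsConj (expSum G n w) (expSum G n (Monoid.Coprod.inl g)) :=
      (expSum G n).map_isConj h
    have h3 : expSum G n (Monoid.Coprod.inl g) = 1 := by simp [expSum]
    rw [h3] at h2
    exact isConj_one_right.1 h2.symm
  have h4 : expMatrix (fun _ : Fin 1 => w) = 0 := by
    ext i j
    simp [expMatrix, h1]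
  rw [FullRank, h4] at hr
  simp at hr

theorem aux_solvable {G : Type u} [Group G] {n : ℕ} {w : Words G n}
    (h : ∀ g : G, Monoid.Coprod.inl g ∈ Subgroup.normalClosure {w} → g = 1) :
    SolvableOver (fun _ : Fin 1 => w) := by
  refine ⟨Words G n ⧸ Subgroup.normalClosure {w}, inferInstance,
    (QuotientGroup.mk' (Subgroup.normalClosure {w})).comp Monoid.Coprod.inl,
    fun j => QuotientGroup.mk' (Subgroup.normalClosure {w}) (Monoid.Coprod.inr (FreeGroup.of j)),
    ?_, ?_⟩
  · rw [injective_iff_map_eq_one]
    intro g hg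
    exact h g ((QuotientGroup.eq_one_iff _).1 hg)
  · intro _
    have h1 : Monoid.Coprod.lift
        ((QuotientGroup.mk' (Subgroup.normalClosure {w})).comp Monoid.Coprod.inl)
        (FreeGroup.lift fun j => QuotientGroup.mk' (Subgroup.normalClosure {w})
          (Monoid.Coprod.inr (FreeGroup.of j))) =
        QuotientGroup.mk' (Subgroup.normalClosure {w}) := by
      apply Monoid.Coprod.hom_ext
      · ext g; simp
      · ext j; simp
    rw [h1]
    exact (QuotientGroup.eq_one_iff _).2 (Subgroup.subset_normalClosure rfl)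

/-- The Kervaire-Laudenbach conjecture, for all equations in any number of unknowns over
left-orderable groups. -/
theorem single (G : Type u) [Group G] (hG : LeftOrderable G) (n : ℕ) (w : Words G n) :
    (SolvableOver (fun _ : Fin 1 => w) ↔
      ∀ g : G, IsConj w (Monoid.Coprod.inl g) → g = 1) ∧
    (FullRank ℚ (fun _ : Fin 1 => w) → SolvableOver (fun _ : Fin 1 => w)) := by
  have key : (∀ g : G, IsConj w (Monoid.Coprod.inl g) → g = 1) →
      SolvableOver (fun _ : Fin 1 => w) := by
    intro hw
    apply aux_solvable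
    intro g hg
    refine LO.free_word hG (W := w) ?_ hg
    rintro u g' rfl
    apply hw
    rw [isConj_comm, isConj_iff]
    exact ⟨u, rfl⟩
  refine ⟨⟨?_, key⟩, fun hr => key fun g hg => absurd hr (aux_rank hg)⟩
  rintro ⟨H, _, ι, h, hι, hw⟩ g hg
  have h1 := (Monoid.Coprod.lift ι (FreeGroup.lift h)).map_isConj hg
  rw [hw 0, Monoid.Coprod.lift_apply_inl] at h1
  exact hι (by rw [isConj_one_right.1 h1, map_one])

/-- The pushforward of words along a homomorphism of coefficient groups. -/
def push {G H : Type u} [Group G] [Group H] (ρ : G →* H) (n : ℕ) : Words G n →* Words H n :=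
  Monoid.Coprod.map ρ (MonoidHom.id _)

theorem expSum_push {G H : Type u} [Group G] [Group H] (ρ : G →* H) (n : ℕ) (w : Words G n) :
    expSum H n (push ρ n w) = expSum G n w := by
  have h : (expSum H n).comp (push ρ n) = expSum G n := by
    apply Monoid.Coprod.hom_ext
    · ext g; simp [expSum, push]
    · ext j; simp [expSum, push]
  exact DFunLike.congr_fun h w

/-- An element of an arbitrary group killed by a nonsingular equation dies in every
left-orderable image. -/
theorem kill_LO {G : Type u} [Group G] {n : ℕ} {w : Words G n}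
    (hw : FullRank ℚ (fun _ : Fin 1 => w)) {g : G}
    (hg : Monoid.Coprod.inl g ∈ Subgroup.normalClosure {w}) (H : Type u) [Group H]
    (hH : LeftOrderable H) (ρ : G →* H) : ρ g = 1 := by
  have h1 : FullRank ℚ (fun _ : Fin 1 => push ρ n w) := by
    have e : expMatrix (fun _ : Fin 1 => push ρ n w) = expMatrix (fun _ : Fin 1 => w) := by
      funext i j
      simp only [expMatrix, expSum_push]
    rw [FullRank, e]
    exact hw
  obtain ⟨K, _, ι, h, hι, hs⟩ := (single H hH n (push ρ n w)).2 h1
  have h2 : (Monoid.Coprod.lift ι (FreeGroup.lift h)).comp (push ρ n) =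
      Monoid.Coprod.lift (ι.comp ρ) (FreeGroup.lift h) := by
    apply Monoid.Coprod.hom_ext
    · ext g; simp [push]
    · ext j; simp [push]
  have h3 : Subgroup.normalClosure {w} ≤
      (Monoid.Coprod.lift (ι.comp ρ) (FreeGroup.lift h)).ker := by
    refine Subgroup.normalClosure_le_normal ?_
    rintro _ rfl
    show Monoid.Coprod.lift (ι.comp ρ) (FreeGroup.lift h) _ = 1
    rw [← h2]
    exact hs 0
  have h4 := h3 hg
  rw [MonoidHom.mem_ker, Monoid.Coprod.lift_apply_inl] at h4
  exact hι (by rw [map_one]; exact h4)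

/-- The cyclic word `x₀ c₀ x₁ c₁ ⋯ x_{ℓ-1} c_{ℓ-1}` in `G * F_n`; the letter `(j, true)` stands for
the unknown `x_j` and the letter `(j, false)` for its inverse. -/
def cyclicWord {G : Type u} [Group G] {n ℓ : ℕ} (x : ZMod ℓ → Fin n × Bool) (c : ZMod ℓ → G) :
    Words G n :=
  ((List.range ℓ).map fun i : ℕ =>
    Monoid.Coprod.inr (FreeGroup.mk [x (i : ZMod ℓ)]) * Monoid.Coprod.inl (c (i : ZMod ℓ))).prod

/-- After the homomorphism `φ` the cyclic word is reduced: no `c_i` with `φ(c_i) = 1` stands
between a letter and its inverse. -/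
def ReducedAlong {G : Type u} [Group G] {Q : Type w} [Group Q] (φ : G →* Q) {n ℓ : ℕ}
    (x : ZMod ℓ → Fin n × Bool) (c : ZMod ℓ → G) : Prop :=
  ∀ i, ¬ (φ (c i) = 1 ∧ x (i + 1) = ((x i).1, !(x i).2))

/-- After the homomorphism `φ` the cyclic word has no period `d` with `0 < d < ℓ`, that is, it is
not a proper power. -/
def AperiodicAlong {G : Type u} [Group G] {Q : Type w} [Group Q] (φ : G →* Q) {n ℓ : ℕ}
    (x : ZMod ℓ → Fin n × Bool) (c : ZMod ℓ → G) : Prop :=
  ∀ d : ℕ, 0 < d → d < ℓ → ¬ ∀ i, x (i + d) = x i ∧ φ (c (i + d)) = φ (c i)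

theorem lF_eq {n : ℕ} (a : Fin n × Bool) : LO.lF a = FreeGroup.mk [a] := by
  obtain ⟨j, b⟩ := a
  cases b
  · simp [LO.lF, FreeGroup.of, FreeGroup.inv_mk, FreeGroup.invRev]
  · simp [LO.lF, FreeGroup.of]

theorem seg_eq {G : Type u} [Group G] {n ℓ : ℕ} (x : ZMod ℓ → Fin n × Bool) (c : ZMod ℓ → G)
    (k : ℕ) (i : ZMod ℓ) : LO.seg x c i k = ((List.range k).map fun j : ℕ =>
      Monoid.Coprod.inr (FreeGroup.mk [x (i + j)]) * Monoid.Coprod.inl (c (i + j))).prod := by
  induction k generalizing i with
  | zero => simp [LO.seg]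
  | succ k ih =>
    rw [List.range_succ_eq_map, List.map_cons, List.prod_cons, LO.seg, ih, List.map_map]
    congr 1
    · simp only [LO.lX, LO.cX, lF_eq, Nat.cast_zero, add_zero]
    · congr 2
      funext j
      simp only [Function.comp_apply, Nat.cast_succ]
      rw [show i + 1 + (j : ZMod ℓ) = i + ((j : ZMod ℓ) + 1) by ring]

/-- Relative Kervaire-Laudenbach: one equation over an arbitrary group, with a left-orderable
image which sees the word reduced and aperiodic. -/
theorem relative {G : Type u} [Group G] {Q : Type w} [Group Q] (hQ : LeftOrderable Q)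
    (φ : G →* Q) {n ℓ : ℕ} [NeZero ℓ] (x : ZMod ℓ → Fin n × Bool) (c : ZMod ℓ → G)
    (h1 : ReducedAlong φ x c) (h2 : AperiodicAlong φ x c) :
    SolvableOver (fun _ : Fin 1 => cyclicWord x c) := by
  apply aux_solvable
  intro g hg
  refine LO.free_LO (ι := Fin n) hQ φ (x := x) (c := c) h1 h2 ?_
  rw [seg_eq]
  simp only [zero_add]
  exact hg

/-- Systems over `G`, with the rank of the exponent-sum matrix taken over `k`: reduction to finitely
generated subgroups without nontrivial homomorphism to `(k, +)`, the case where these are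
hyperlinear, extensions by locally indicable groups, localization of a killed element. -/
def LocalForm (k : Type) [Field k] (G : Type u) [Group G] : Prop :=
  (HowieOver k G ↔
    ∀ H : Subgroup G, H.FG → (∀ f : H →* Multiplicative k, f = 1) → HowieOver k H) ∧
  ((∀ H : Subgroup G, H.FG → (∀ f : H →* Multiplicative k, f = 1) → Hyperlinear H) →
    HowieOver k G) ∧
  (∀ (N : Subgroup G) [N.Normal], HowieOver ℚ N → LocallyIndicable (G ⧸ N) →
    HowieOver ℚ G) ∧
  (∀ (m n : ℕ) (w : Fin m → Words G n), FullRank k w →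
    ∀ g : G, Monoid.Coprod.inl g ∈ Subgroup.normalClosure (Set.range w) →
    ∃ (P : Subgroup G) (hgP : g ∈ P), P.FG ∧ (∀ f : P →* Multiplicative k, f = 1) ∧
      (∀ (H : Type u) [Group H] (ρ : P →* H), Hyperlinear H → ρ ⟨g, hgP⟩ = 1) ∧
      ∃ (m' n' : ℕ) (w' : Fin m' → Words P n'), FullRank k w' ∧
        Monoid.Coprod.inl (⟨g, hgP⟩ : P) ∈ Subgroup.normalClosure (Set.range w'))

/-- The relative form, for a system `w` with `φ(w_i) = 1`: the Fox derivative `D` along `φ` exists
and is unique, and if its rows `D(w_i)` are left independent over `k[Q]` then (1) `w` is solvable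
over `G` when the finitely generated subgroups of `ker φ` (in `G`) without nontrivial homomorphism
to `(k, +)` are hyperlinear, (2) each killed element is localized in such a subgroup. -/
def RelativeForm (k : Type) [Field k] {G : Type u} [Group G] {Q : Type w} [Group Q] {m n : ℕ}
    (w : Fin m → Words G n) (φ : Words G n →* Q) : Prop :=
  (∃! D : Words G n → Fin n → MonoidAlgebra k Q, IsFox φ D) ∧
  ∀ D : Words G n → Fin n → MonoidAlgebra k Q, IsFox φ D →
    LinearIndependent (MonoidAlgebra k Q) (fun i => D (w i)) →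
    ((∀ P : Subgroup G, P.FG → (∀ x ∈ P, φ (Monoid.Coprod.inl x) = 1) →
      (∀ f : P →* Multiplicative k, f = 1) → Hyperlinear P) → SolvableOver w) ∧
    (∀ g : G, Monoid.Coprod.inl g ∈ Subgroup.normalClosure (Set.range w) →
      ∃ (P : Subgroup G) (hgP : g ∈ P), P.FG ∧ (∀ x ∈ P, φ (Monoid.Coprod.inl x) = 1) ∧
        (∀ f : P →* Multiplicative k, f = 1) ∧
        (∀ (H : Type u) [Group H] (ρ : P →* H), Hyperlinear H → ρ ⟨g, hgP⟩ = 1) ∧
        ∃ (m' n' : ℕ) (w' : Fin m' → Words P n'), FullRank k w' ∧
          Monoid.Coprod.inl (⟨g, hgP⟩ : P) ∈ Subgroup.normalClosure (Set.range w'))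

theorem localForm (k : Type) [Field k] (G : Type u) [Group G] : LocalForm k G :=
  ⟨howieOver_iff_local k G, howie_combined unitarySolve k G,
    fun N _ hN hQ => howie_extension G N hN hQ,
    fun _ _ w hw g hg => full_localization w hw g hg⟩

theorem relativeForm (k : Type) [Field k] {G : Type u} [Group G] {Q : Type w} [Group Q] {m n : ℕ}
    (w : Fin m → Words G n) (φ : Words G n →* Q) (hφ : ∀ i, φ (w i) = 1) :
    RelativeForm k w φ := by
  refine ⟨⟨foxRow k φ, isFox_foxRow φ, fun D hD => isFox_unique φ D _ hD (isFox_foxRow φ)⟩, ?_⟩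
  intro D hD hind
  rw [isFox_unique φ D _ hD (isFox_foxRow φ)] at hind
  exact ⟨relative_hyperlinear w φ hφ hind, fun g hg => relative_kill w φ hφ hind g hg⟩

end Vale.Agent.P174.H753
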